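import Mathlib
import Vale.Agent.P366.H353.N.Basic

/-! Null shells in all dimensions: pointwise inequalities (leaf D). -/

open MeasureTheory Metric Filter Topology Set
open scoped ContDiff Matrix

noncomputable section
namespace Vale.Agent.P366.H353.N

open Vale.Agent.P366 (sphI sphM pd E)

variable {n : ℕ}

namespace D208

/-! ### matrices -/

lemma form_eq (M : Matrix (Fin n) (Fin n) ℝ) (w : Fin n → ℝ) :
    star w ⬝ᵥ M *ᵥ w = ∑ i, ∑ j, M i j * w i * w j := by
  simp only [dotProduct, Matrix.mulVec, star_trivial, Finset.mul_sum]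
  exact Finset.sum_congr rfl fun i _ => Finset.sum_congr rfl fun j _ => by ring

lemma herm {M : Matrix (Fin n) (Fin n) ℝ} (hM : ∀ i j, M i j = M j i) : M.IsHermitian := by
  ext i j
  rw [Matrix.conjTranspose_apply, star_trivial, hM]

lemma posSemidef_of {M : Matrix (Fin n) (Fin n) ℝ} (hM : ∀ i j, M i j = M j i)
    (h : ∀ w : Fin n → ℝ, 0 ≤ ∑ i, ∑ j, M i j * w i * w j) : M.PosSemidef :=
  Matrix.PosSemidef.of_dotProduct_mulVec_nonneg (herm hM) fun w => by rw [form_eq]; exact h w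

lemma posDef_of {M : Matrix (Fin n) (Fin n) ℝ} (hM : ∀ i j, M i j = M j i)
    (h : ∀ w : Fin n → ℝ, w ≠ 0 → 0 < ∑ i, ∑ j, M i j * w i * w j) : M.PosDef :=
  Matrix.PosDef.of_dotProduct_mulVec_pos (herm hM) fun w hw => by rw [form_eq]; exact h w hw

open scoped MatrixOrder in
lemma factor {M : Matrix (Fin n) (Fin n) ℝ} (hM : M.PosSemidef) :
    ∃ C : Matrix (Fin n) (Fin n) ℝ, M = Cᴴ * C := by
  obtain ⟨B, hB⟩ := CStarAlgebra.nonneg_iff_eq_star_mul_self.mp hM.nonneg
  exact ⟨B, hB⟩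

/-- AM-GM -/
lemma det_le (hn : 0 < n) {M : Matrix (Fin n) (Fin n) ℝ} (hM : M.PosSemidef) :
    M.det ≤ (M.trace / n) ^ n := by
  have hn' : (0 : ℝ) < n := Nat.cast_pos.2 hn
  have h1 : M.det = ∏ i, hM.1.eigenvalues i := by
    have := hM.1.det_eq_prod_eigenvalues
    simpa using this
  have h2 : M.trace = ∑ i, hM.1.eigenvalues i := by
    have := hM.1.trace_eq_sum_eigenvalues
    simpa using this
  have h3 := Real.geom_mean_le_arith_mean_weighted Finset.univ (fun _ : Fin n => (n : ℝ)⁻¹)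
    (fun i => hM.1.eigenvalues i) (fun _ _ => by positivity)
    (by simp [hn'.ne']) (fun i _ => hM.eigenvalues_nonneg i)
  have h4 : (∏ i, hM.1.eigenvalues i ^ (n : ℝ)⁻¹) ^ n = ∏ i, hM.1.eigenvalues i := by
    rw [← Finset.prod_pow]
    refine Finset.prod_congr rfl fun i _ => ?_
    rw [← Real.rpow_natCast, ← Real.rpow_mul (hM.eigenvalues_nonneg i), inv_mul_cancel₀ hn'.ne',
      Real.rpow_one]
  rw [h1, h2, ← h4]
  refine pow_le_pow_left₀ (Finset.prod_nonneg fun i _ =>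
    Real.rpow_nonneg (hM.eigenvalues_nonneg i) _) (h3.trans (le_of_eq ?_)) n
  rw [← Finset.mul_sum]
  field_simp

lemma det_mul_le (hn : 0 < n) {A B : Matrix (Fin n) (Fin n) ℝ} (hA : A.PosSemidef)
    (hB : B.PosSemidef) : 0 ≤ (A * B).trace ∧ A.det * B.det ≤ ((A * B).trace / n) ^ n := by
  obtain ⟨C, rfl⟩ := factor hA
  have hP : (C * B * Cᴴ).PosSemidef := hB.mul_mul_conjTranspose_same C
  have h1 : (C * B * Cᴴ).trace = (Cᴴ * C * B).trace := by
    rw [Matrix.trace_mul_comm, Matrix.mul_assoc]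
  have h2 : (C * B * Cᴴ).det = (Cᴴ * C).det * B.det := by
    rw [Matrix.det_mul, Matrix.det_mul, Matrix.det_mul]; ring
  rw [← h1, ← h2]
  exact ⟨hP.trace_nonneg, det_le hn hP⟩

/-- the matrix `M + s x xᵀ` -/
def Mx (x : Fin n → ℝ) (s : ℝ) (M : Fin n → Fin n → ℝ) : Matrix (Fin n) (Fin n) ℝ :=
  Matrix.of fun i j => M i j + s * (x i * x j)

lemma dtan_eq (x : Fin n → ℝ) (M : Fin n → Fin n → ℝ) : dtan x M = (Mx x 1 M).det := by
  unfold dtan Mx
  simp only [one_mul]

lemma Mx_det {x : Fin n → ℝ} {M : Fin n → Fin n → ℝ} (hx : ∑ i, x i ^ 2 = 1)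
    (hM : ∀ i, ∑ j, M i j * x j = 0) (s : ℝ) : (Mx x s M).det = s * dtan x M := by
  have hxx : x ⬝ᵥ x = 1 := by
    rw [← hx]; simp only [dotProduct, sq]
  have h1 : Mx x s M = Mx x 1 M * (1 + Matrix.replicateCol Unit ((s - 1) • x) *
      Matrix.replicateRow Unit x) := by
    ext i j
    rw [Matrix.mul_add, Matrix.mul_one, Matrix.add_apply, ← Matrix.mul_assoc, Matrix.mul_apply]
    simp only [Finset.univ_unique, Finset.sum_singleton, Matrix.replicateRow_apply]
    rw [Matrix.mul_apply]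
    simp only [Matrix.replicateCol_apply, Pi.smul_apply, smul_eq_mul]
    unfold Mx
    simp only [Matrix.of_apply, one_mul]
    have h2 : ∑ k, (M i k + x i * x k) * ((s - 1) * x k) = (s - 1) * x i := by
      have h3 : ∀ k, (M i k + x i * x k) * ((s - 1) * x k) =
          (s - 1) * (M i k * x k) + (s - 1) * x i * x k ^ 2 := fun k => by ring
      simp only [h3, Finset.sum_add_distrib, ← Finset.mul_sum, hM i, hx]
      ring
    rw [h2]; ring
  rw [h1, Matrix.det_mul, Matrix.det_one_add_replicateCol_mul_replicateRow, dtan_eq,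
    dotProduct_smul, hxx, smul_eq_mul]
  ring

lemma Mx_form (x : Fin n → ℝ) (s : ℝ) (M : Fin n → Fin n → ℝ) (w : Fin n → ℝ) :
    ∑ i, ∑ j, Mx x s M i j * w i * w j = qf M w w + s * (∑ i, x i * w i) ^ 2 := by
  unfold Mx qf
  simp only [Matrix.of_apply]
  have h : ∀ i, ∑ j, (M i j + s * (x i * x j)) * w i * w j =
      ∑ j, M i j * w i * w j + s * (∑ j, x j * w j) * (x i * w i) := by
    intro i
    rw [mul_assoc, Finset.sum_mul, Finset.mul_sum, ← Finset.sum_add_distrib]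
    exact Finset.sum_congr rfl fun j _ => by ring
  simp only [h, Finset.sum_add_distrib, ← Finset.mul_sum]
  ring

lemma Mx_symm {x : Fin n → ℝ} {s : ℝ} {M : Fin n → Fin n → ℝ} (hM : ∀ i j, M i j = M j i)
    (i j : Fin n) : Mx x s M i j = Mx x s M j i := by
  unfold Mx
  simp only [Matrix.of_apply]
  rw [hM i j]; ring

/-- splitting a vector -/
lemma qf_split {x : Fin n → ℝ} {M : Fin n → Fin n → ℝ} (hx : ∑ i, x i ^ 2 = 1)
    (hs : ∀ i j, M i j = M j i) (hM : ∀ i, ∑ j, M i j * x j = 0) (w : Fin n → ℝ) :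
    qf M w w = qf M (fun i => w i - (∑ k, x k * w k) * x i)
      (fun i => w i - (∑ k, x k * w k) * x i) ∧
      ∑ i, x i * (w i - (∑ k, x k * w k) * x i) = 0 := by
  constructor
  · set c := ∑ k, x k * w k
    unfold qf
    have h1 : ∑ i, ∑ j, M i j * (w i - c * x i) * (w j - c * x j) =
        ∑ i, ∑ j, M i j * w i * w j - c * (∑ i, ∑ j, M i j * w i * x j) -
          c * (∑ i, ∑ j, M i j * x i * w j) + c ^ 2 * ∑ i, ∑ j, M i j * x i * x j := by
      simp only [Finset.mul_sum, ← Finset.sum_add_distrib, ← Finset.sum_sub_distrib]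
      exact Finset.sum_congr rfl fun i _ => Finset.sum_congr rfl fun j _ => by ring
    have h2 : ∀ u : Fin n → ℝ, ∑ i, ∑ j, M i j * u i * x j = 0 := by
      intro u
      refine Finset.sum_eq_zero fun i _ => ?_
      have h3 : ∑ j, M i j * u i * x j = u i * ∑ j, M i j * x j := by
        rw [Finset.mul_sum]
        exact Finset.sum_congr rfl fun j _ => by ring
      rw [h3, hM i, mul_zero]
    have h4 : ∑ i, ∑ j, M i j * x i * w j = 0 := by
      rw [← h2 w, Finset.sum_comm]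
      exact Finset.sum_congr rfl fun i _ => Finset.sum_congr rfl fun j _ => by rw [hs j i]; ring
    rw [h1, h2, h4, h2]
    ring
  · have h1 : ∑ i, x i * (w i - (∑ k, x k * w k) * x i) =
        ∑ i, x i * w i - (∑ k, x k * w k) * ∑ i, x i ^ 2 := by
      rw [Finset.mul_sum, ← Finset.sum_sub_distrib]
      exact Finset.sum_congr rfl fun i _ => by ring
    rw [h1, hx]; ring

lemma qf_nonneg {x : Fin n → ℝ} {A : Fin n → Fin n → ℝ} (hx : ∑ i, x i ^ 2 = 1)
    (hs : ∀ i j, A i j = A j i) (hAx : ∀ i, ∑ j, A i j * x j = 0)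
    (hA : ∀ v : Fin n → ℝ, ∑ i, x i * v i = 0 → v ≠ 0 → 0 < qf A v v) (w : Fin n → ℝ) :
    0 ≤ qf A w w := by
  obtain ⟨h1, h2⟩ := qf_split hx hs hAx w
  rw [h1]
  by_cases h : (fun i => w i - (∑ k, x k * w k) * x i) = 0
  · rw [h]
    simp [qf]
  · exact (hA _ h2 h).le

lemma Mx_posDef {x : Fin n → ℝ} {A : Fin n → Fin n → ℝ} (hx : ∑ i, x i ^ 2 = 1)
    (hs : ∀ i j, A i j = A j i) (hAx : ∀ i, ∑ j, A i j * x j = 0)
    (hA : ∀ v : Fin n → ℝ, ∑ i, x i * v i = 0 → v ≠ 0 → 0 < qf A v v) {s : ℝ} (hs0 : 0 < s) :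
    (Mx x s A).PosDef := by
  refine posDef_of (Mx_symm hs) fun w hw => ?_
  rw [Mx_form]
  obtain ⟨h1, h2⟩ := qf_split hx hs hAx w
  by_cases h : (fun i => w i - (∑ k, x k * w k) * x i) = 0
  · have h3 : ∑ i, x i * w i ≠ 0 := by
      intro h0
      apply hw
      funext i
      have := congrFun h i
      simp only [h0, zero_mul, sub_zero, Pi.zero_apply] at this
      simpa using this
    have h4 : 0 < (∑ i, x i * w i) ^ 2 := by positivity
    have h5 := qf_nonneg hx hs hAx hA w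
    have := mul_pos hs0 h4
    linarith
  · have h3 := hA _ h2 h
    rw [← h1] at h3
    have := mul_nonneg hs0.le (sq_nonneg (∑ i, x i * w i))
    linarith

lemma Mx_posSemidef {x : Fin n → ℝ} {B : Fin n → Fin n → ℝ} (hs : ∀ i j, B i j = B j i)
    (hB : ∀ v : Fin n → ℝ, 0 ≤ qf B v v) {s : ℝ} (hs0 : 0 ≤ s) : (Mx x s B).PosSemidef := by
  refine posSemidef_of (Mx_symm hs) fun w => ?_
  rw [Mx_form]
  exact add_nonneg (hB w) (mul_nonneg hs0 (sq_nonneg _))

lemma trace_Mx {x : Fin n → ℝ} {A B : Fin n → Fin n → ℝ} (hx : ∑ i, x i ^ 2 = 1)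
    (hBs : ∀ i j, B i j = B j i) (hAx : ∀ i, ∑ j, A i j * x j = 0)
    (hBx : ∀ i, ∑ j, B i j * x j = 0) (s : ℝ) :
    (Mx x 1 A * Mx x s B).trace = ip A B + s := by
  unfold Matrix.trace Mx ip
  simp only [Matrix.diag_apply, Matrix.mul_apply, Matrix.of_apply]
  have h1 : ∀ i, ∑ j, (A i j + 1 * (x i * x j)) * (B j i + s * (x j * x i)) =
      ∑ j, A i j * B i j + s * x i * (∑ j, A i j * x j) + x i * (∑ j, B i j * x j) +
        s * x i ^ 2 * ∑ j, x j ^ 2 := by
    intro i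
    simp only [Finset.mul_sum, ← Finset.sum_add_distrib]
    exact Finset.sum_congr rfl fun j _ => by rw [hBs j i]; ring
  simp only [h1, hAx, hBx, hx, mul_zero, add_zero, mul_one, Finset.sum_add_distrib,
    ← Finset.mul_sum]

/-- `A ≤ tr A` for a nonnegative form -/
lemma qf_le_tr {A : Fin n → Fin n → ℝ} (hs : ∀ i j, A i j = A j i)
    (hA : ∀ v : Fin n → ℝ, 0 ≤ qf A v v) (v : Fin n → ℝ) : qf A v v ≤ tr A * ∑ i, v i ^ 2 := by
  obtain ⟨C, hC⟩ := factor (posSemidef_of (M := Matrix.of A) hs hA)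
  have h1 : ∀ i j, A i j = ∑ k, C k i * C k j := by
    intro i j
    have := congrFun (congrFun hC i) j
    rw [Matrix.mul_apply] at this
    simpa [Matrix.conjTranspose_apply] using this
  have h2 : qf A v v = ∑ k, (∑ i, C k i * v i) ^ 2 := by
    unfold qf
    simp only [h1, sq, Finset.sum_mul, Finset.mul_sum]
    rw [Finset.sum_congr rfl fun i _ => Finset.sum_comm, Finset.sum_comm]
    refine Finset.sum_congr rfl fun k _ => ?_
    rw [Finset.sum_comm]
    exact Finset.sum_congr rfl fun i _ => Finset.sum_congr rfl fun j _ => by ring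
  have h3 : tr A = ∑ k, ∑ i, C k i ^ 2 := by
    unfold tr
    simp only [h1]
    rw [Finset.sum_comm]
    exact Finset.sum_congr rfl fun k _ => Finset.sum_congr rfl fun i _ => by ring
  rw [h2, h3, Finset.sum_mul]
  exact Finset.sum_le_sum fun k _ => Finset.sum_mul_sq_le_sq_mul_sq _ _ _

end D208

open D208

/-- The arithmetic-geometric inequality on the tangent space. -/
theorem amgm [hn : Fact (3 ≤ n)] {x : Fin n → ℝ} {A B : Fin n → Fin n → ℝ}
    (hx : ∑ i, x i ^ 2 = 1)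
    (hAs : ∀ i j, A i j = A j i) (hBs : ∀ i j, B i j = B j i)
    (hAx : ∀ i, ∑ j, A i j * x j = 0) (hBx : ∀ i, ∑ j, B i j * x j = 0)
    (hA : ∀ v : Fin n → ℝ, ∑ i, x i * v i = 0 → v ≠ 0 → 0 < qf A v v)
    (hB : ∀ v : Fin n → ℝ, 0 ≤ qf B v v) :
    0 ≤ ip A B ∧ dtan x A * dtan x B ≤ (ip A B / ((n : ℝ) - 1)) ^ (n - 1) := by
  have h3 := hn.out
  have hn0 : 0 < n := by omega
  have hnR : (3 : ℝ) ≤ n := by exact_mod_cast h3
  have key : ∀ s : ℝ, 0 < s → 0 ≤ ip A B + s ∧
      s * (dtan x A * dtan x B) ≤ ((ip A B + s) / n) ^ n := by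
    intro s hs
    have h1 := det_mul_le hn0 (Mx_posDef hx hAs hAx hA one_pos).posSemidef
      (Mx_posSemidef (x := x) hBs hB hs.le)
    rw [trace_Mx hx hBs hAx hBx, Mx_det hx hBx, ← dtan_eq] at h1
    refine ⟨h1.1, ?_⟩
    calc s * (dtan x A * dtan x B) = dtan x A * (s * dtan x B) := by ring
      _ ≤ _ := h1.2
  have hp : 0 ≤ ip A B := by
    by_contra h
    push Not at h
    have := (key (-(ip A B) / 2) (by linarith)).1
    linarith
  refine ⟨hp, ?_⟩
  rcases hp.lt_or_eq with hp' | hp'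
  · set p := ip A B
    have hs : 0 < p / ((n : ℝ) - 1) := div_pos hp' (by linarith)
    have h1 := (key _ hs).2
    have h2 : (p + p / ((n : ℝ) - 1)) / n = p / ((n : ℝ) - 1) := by
      have : (n : ℝ) - 1 ≠ 0 := by linarith
      field_simp
      ring
    rw [h2] at h1
    have h4 : (p / ((n : ℝ) - 1)) ^ n = p / ((n : ℝ) - 1) * (p / ((n : ℝ) - 1)) ^ (n - 1) := by
      rw [← pow_succ']
      congr 1
      omega
    rw [h4] at h1
    exact le_of_mul_le_mul_left h1 hs
  · rw [← hp', zero_div, zero_pow (by omega)]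
    by_contra hc
    push Not at hc
    set d := dtan x A * dtan x B
    set s := min (1 / 2) (d / 2)
    have hs : 0 < s := lt_min (by norm_num) (by linarith)
    have hs1 : s ≤ 1 / 2 := min_le_left _ _
    have hs2 : s ≤ d / 2 := min_le_right _ _
    have h1 := (key s hs).2
    rw [← hp', zero_add] at h1
    have h2 : (s / n) ^ n ≤ s ^ 2 := by
      calc (s / n) ^ n ≤ s ^ n := by
            refine pow_le_pow_left₀ (by positivity) (div_le_self hs.le (by linarith)) n
        _ ≤ s ^ 2 := pow_le_pow_of_le_one hs.le (by linarith) (by omega)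
    nlinarith

theorem dA_pos (D : Ten n) {x : E n} (hx : ‖x‖ = 1) : 0 < D.dA x := by
  have hx2 : ∑ i, x i ^ 2 = 1 := by
    have h := EuclideanSpace.real_norm_sq_eq x
    rw [hx] at h
    linarith
  unfold Ten.dA
  rw [dtan_eq]
  exact (Mx_posDef hx2 (D.symA x) (D.tanA x (ne_zero_of_one hx)) (D.posA x hx) one_pos).det_pos

namespace D208

variable {q : E n → ℝ} {x : E n}

lemma sum_sq (hx : ‖x‖ = 1) : ∑ i, x i ^ 2 = 1 := by
  have h := EuclideanSpace.real_norm_sq_eq x
  rw [hx] at h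
  linarith

lemma x_pd (hq : Q q) (hx : x ≠ 0) : ∑ i, x i * pd i q x = 0 := by
  rw [hq.hom.euler hq.sm hx]
  simp

lemma pd_x (hq : Q q) (hx : x ≠ 0) : ∑ i, pd i q x * x i = 0 := by
  rw [← x_pd hq hx]
  exact Finset.sum_congr rfl fun i _ => mul_comm _ _

lemma hs_x (hq : Q q) (hx : x ≠ 0) (i : Fin n) : ∑ j, hs q i j x * x j = - pd i q x := by
  have h := (hq.hom.pd hq.sm i).euler (hq.sm.pd i) hx
  push_cast at h
  have e : ∑ j, hs q i j x * x j = ∑ j, x j * pd j (pd i q) x :=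
    Finset.sum_congr rfl fun j _ => by
      rw [hs_symm hq.sm hx i j, mul_comm]
      rfl
  rw [e, h]
  ring

lemma kd_mul (i : Fin n) (v : Fin n → ℝ) : ∑ j, kd i j * v j = v i := by simp [kd]

lemma kd_comm (i j : Fin n) : kd i j = kd j i := by
  unfold kd
  simp only [eq_comm]

lemma Bq_symm (hq : Q q) (hx : x ≠ 0) (i j : Fin n) : Bq q x i j = Bq q x j i := by
  unfold Bq Zb pr
  rw [hs_symm hq.sm hx i j, kd_comm i j]
  ring

lemma Bq_x (hq : Q q) (hx : ‖x‖ = 1) (i : Fin n) : ∑ j, Bq q x i j * x j = 0 := by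
  have h0 := ne_zero_of_one hx
  have h1 := hs_x hq h0 i
  have h2 := pd_x hq h0
  have h3 := sum_sq hx
  have h4 := kd_mul i fun j => x j
  unfold Bq Zb pr
  have e : ∀ j, (hs q i j x + pd i q x * x j + x i * pd j q x +
      (2 * cc q x ^ 2 - 1) / cc q x * (kd i j - x i * x j) +
      pd i q x * pd j q x / (4 * cc q x)) * x j =
      hs q i j x * x j + pd i q x * x j ^ 2 + x i * (pd j q x * x j) +
      (2 * cc q x ^ 2 - 1) / cc q x * (kd i j * x j) -
      (2 * cc q x ^ 2 - 1) / cc q x * x i * x j ^ 2 +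
      pd i q x / (4 * cc q x) * (pd j q x * x j) := fun j => by ring
  simp only [e, Finset.sum_add_distrib, Finset.sum_sub_distrib, ← Finset.mul_sum, h1, h2, h3, h4]
  ring

variable (D : Ten n)

lemma L_eq (hq : Q q) (hx : ‖x‖ = 1) : D.L q x =
    (∑ j, (tr (D.A x) * D.b x j - ∑ k, D.A x j k * D.b x k) * pd j q x) +
      ∑ i, ∑ j, D.A x i j * hs q i j x := by
  have h0 := ne_zero_of_one hx
  have h1 : ∀ i, pd i (fun y => ∑ j, D.A y i j * pd j q y) x =
      ∑ j, D.A x i j * hs q i j x + ∑ j, pd i (fun y => D.A y i j) x * pd j q x := by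
    intro i
    rw [pd_sum' _ (fun j => (D.smA i j).mul (hq.sm.pd j)) h0, ← Finset.sum_add_distrib]
    refine Finset.sum_congr rfl fun j _ => ?_
    rw [pd_mul' (D.smA i j) (hq.sm.pd j) h0]
    rfl
  unfold Ten.L
  simp only [h1, Finset.sum_add_distrib]
  rw [add_comm]
  congr 1
  rw [← D.divA x hx (fun j => pd j q x) (x_pd hq h0), Finset.sum_comm]
  exact Finset.sum_congr rfl fun j _ => by rw [Finset.sum_mul]

lemma ip_eq (hx : ‖x‖ = 1) : ip (D.A x) (Bq q x) =
    ∑ i, ∑ j, D.A x i j * hs q i j x + (2 * cc q x ^ 2 - 1) / cc q x * tr (D.A x) +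
      qf (D.A x) (fun i => pd i q x) (fun i => pd i q x) / (4 * cc q x) := by
  have h0 := ne_zero_of_one hx
  have ht := D.tanA x h0
  have hs' := D.symA x
  have ht' : ∀ j, ∑ i, D.A x i j * x i = 0 := by
    intro j
    rw [← ht j]
    exact Finset.sum_congr rfl fun i _ => by rw [hs' i j]
  have hk : ∀ i, ∑ j, D.A x i j * kd i j = D.A x i i := by
    intro i
    have := kd_mul i fun j => D.A x i j
    rw [← this]
    exact Finset.sum_congr rfl fun j _ => mul_comm _ _
  have e1 : ∀ i, ∑ j, D.A x i j * Bq q x i j =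
      ∑ j, D.A x i j * hs q i j x + ∑ j, D.A x i j * x i * pd j q x +
      (2 * cc q x ^ 2 - 1) / cc q x * D.A x i i +
      (∑ j, D.A x i j * pd i q x * pd j q x) / (4 * cc q x) := by
    intro i
    have e2 : ∀ j, D.A x i j * Bq q x i j = D.A x i j * hs q i j x + pd i q x * (D.A x i j * x j) +
        D.A x i j * x i * pd j q x + (2 * cc q x ^ 2 - 1) / cc q x * (D.A x i j * kd i j) -
        (2 * cc q x ^ 2 - 1) / cc q x * x i * (D.A x i j * x j) +
        (D.A x i j * pd i q x * pd j q x) / (4 * cc q x) := by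
      intro j
      unfold Bq Zb pr
      ring
    simp only [e2, Finset.sum_add_distrib, Finset.sum_sub_distrib, ← Finset.mul_sum, ht i, hk i,
      ← Finset.sum_div]
    ring
  unfold ip
  simp only [e1, Finset.sum_add_distrib, ← Finset.mul_sum, ← Finset.sum_div]
  have e3 : ∑ i, ∑ j, D.A x i j * x i * pd j q x = 0 := by
    rw [Finset.sum_comm]
    refine Finset.sum_eq_zero fun j _ => ?_
    rw [← Finset.sum_mul, ht' j, zero_mul]
  rw [e3]
  unfold tr qf
  ring

end D208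

theorem key_pt [hn : Fact (3 ≤ n)] (D : Ten n) {q : E n → ℝ} (hq : Q q) {x : E n} (hx : ‖x‖ = 1)
    (hg : gsq q x < 4) (hB : ∀ v : Fin n → ℝ, 0 ≤ qf (Bq q x) v v) :
    0 ≤ D.L q x + D.Phi x ∧
      D.dA x * dtan x (Bq q x) ≤ ((D.L q x + D.Phi x) / ((n : ℝ) - 1)) ^ (n - 1) := by
  have h0 := ne_zero_of_one hx
  have hx2 := sum_sq hx
  have hnR : (3 : ℝ) ≤ n := by exact_mod_cast hn.out
  obtain ⟨hp, hd⟩ := amgm hx2 (D.symA x) (Bq_symm hq h0) (D.tanA x h0) (Bq_x hq hx)
    (D.posA x hx) hB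
  have hAn : ∀ v : Fin n → ℝ, 0 ≤ qf (D.A x) v v :=
    qf_nonneg hx2 (D.symA x) (D.tanA x h0) (D.posA x hx)
  suffices hle : ip (D.A x) (Bq q x) ≤ D.L q x + D.Phi x by
    refine ⟨hp.trans hle, ?_⟩
    unfold Ten.dA
    refine hd.trans (pow_le_pow_left₀ (div_nonneg hp (by linarith)) ?_ _)
    exact div_le_div_of_nonneg_right hle (by linarith)
  -- the numbers
  obtain ⟨C, hC⟩ : ∃ C, C = cc q x := ⟨_, rfl⟩
  obtain ⟨g, hgd⟩ : ∃ g : Fin n → ℝ, g = fun i => pd i q x := ⟨_, rfl⟩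
  have hG0 : 0 ≤ gsq q x := Finset.sum_nonneg fun i _ => sq_nonneg _
  have hCpos : 0 < C := by
    rw [hC]; exact Real.sqrt_pos.2 (by linarith)
  have hCsq : C ^ 2 = 1 - gsq q x / 4 := by
    rw [hC]; exact Real.sq_sqrt (by linarith)
  have hC1 : C ≤ 1 := by nlinarith
  have hTn : 0 ≤ tr (D.A x) := by
    refine Finset.sum_nonneg fun i _ => ?_
    have := hAn (Pi.single i 1)
    unfold qf at this
    simpa [Pi.single_apply] using this
  have hG : ∑ i, g i ^ 2 = gsq q x := by rw [hgd]; rfl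
  have ha := qf_le_tr (D.symA x) hAn g
  have ha0 := hAn g
  have hb := qf_le_tr (D.symA x) hAn fun i => D.b x i + g i / 2
  have hb1 : ∑ i, (D.b x i + g i / 2) ^ 2 =
      ∑ i, D.b x i ^ 2 + ∑ i, D.b x i * g i + (∑ i, g i ^ 2) / 4 := by
    rw [Finset.sum_div, ← Finset.sum_add_distrib, ← Finset.sum_add_distrib]
    exact Finset.sum_congr rfl fun i _ => by ring
  have hb2 : qf (D.A x) (fun i => D.b x i + g i / 2) (fun i => D.b x i + g i / 2) =
      qf (D.A x) (D.b x) (D.b x) + ∑ j, (∑ k, D.A x j k * D.b x k) * g j +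
        qf (D.A x) g g / 4 := by
    have h1 : ∑ j, (∑ k, D.A x j k * D.b x k) * g j =
        (∑ i, ∑ j, D.A x i j * g i * D.b x j) / 2 + (∑ i, ∑ j, D.A x i j * D.b x i * g j) / 2 := by
      have h2 : ∑ j, (∑ k, D.A x j k * D.b x k) * g j = ∑ i, ∑ j, D.A x i j * g i * D.b x j := by
        refine Finset.sum_congr rfl fun i _ => ?_
        rw [Finset.sum_mul]
        exact Finset.sum_congr rfl fun j _ => by ring
      have h3 : ∑ i, ∑ j, D.A x i j * D.b x i * g j = ∑ i, ∑ j, D.A x i j * g i * D.b x j := by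
        rw [Finset.sum_comm]
        exact Finset.sum_congr rfl fun i _ => Finset.sum_congr rfl fun j _ => by
          rw [D.symA x j i]; ring
      rw [h2, h3]; ring
    rw [h1]
    unfold qf
    simp only [Finset.sum_div, ← Finset.sum_add_distrib]
    exact Finset.sum_congr rfl fun i _ => Finset.sum_congr rfl fun j _ => by ring
  rw [hb1, hb2] at hb
  have hm : ∑ j, (tr (D.A x) * D.b x j - ∑ k, D.A x j k * D.b x k) * pd j q x =
      tr (D.A x) * (∑ j, D.b x j * g j) - ∑ j, (∑ k, D.A x j k * D.b x k) * g j := by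
    rw [Finset.mul_sum, ← Finset.sum_sub_distrib, hgd]
    exact Finset.sum_congr rfl fun j _ => by ring
  rw [L_eq D hq hx, ip_eq D hx, hm]
  unfold Ten.Phi
  rw [← hC, show (fun i => pd i q x) = g from hgd.symm]
  rw [hG] at hb ha
  set T := tr (D.A x)
  set a := qf (D.A x) g g
  set X := ∑ i, ∑ j, D.A x i j * hs q i j x
  have hGC : gsq q x = 4 * (1 - C ^ 2) := by linarith
  rw [hGC] at hb ha
  have hfin : (2 * C ^ 2 - 1) / C * T + a / (4 * C) ≤ T - (T * (4 * (1 - C ^ 2)) - a) / 4 := by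
    have e1 : (2 * C ^ 2 - 1) / C * T + a / (4 * C) = (4 * (2 * C ^ 2 - 1) * T + a) / (4 * C) := by
      field_simp
    rw [e1, div_le_iff₀ (by positivity)]
    nlinarith [mul_nonneg (mul_nonneg hTn hCpos.le) (sub_nonneg.2 hC1),
      mul_nonneg (sub_nonneg.2 ha) (sub_nonneg.2 hC1)]
  linarith

end Vale.Agent.P366.H353.N
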