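import Mathlib
import Vale.Agent.P366.H353.Cont
import Vale.Agent.P366.H745.B
import Vale.Agent.P366.H375.D
import Vale.Agent.P366.H296.X4b

/-! Null shells: pointwise algebra for the null expansion of the boundary. -/

open MeasureTheory Metric Filter Topology Set
open scoped ContDiff

noncomputable section
namespace Vale.Agent.P366.H208

open Vale.Agent.P366 (pd E)
open Vale.Agent.P366.H353

/-- cofactor matrix on the plane -/
def cf (x : Fin 3 → ℝ) (W : Fin 3 → Fin 3 → ℝ) (i j : Fin 3) : ℝ := tr3 W * pr x i j - W i j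

variable {x b t U : Fin 3 → ℝ} {W G B : Fin 3 → Fin 3 → ℝ} {τ d : ℝ}

lemma kd_mul (i : Fin 3) (v : Fin 3 → ℝ) : ∑ j, kd i j * v j = v i := by simp [kd]

lemma pr_mul (i : Fin 3) (v : Fin 3 → ℝ) : ∑ j, pr x i j * v j = v i - x i * ∑ j, x j * v j := by
  have h := kd_mul i v
  unfold pr
  simp only [sub_mul, Finset.sum_sub_distrib, h, Finset.mul_sum, mul_assoc]

lemma pr_comm (i j : Fin 3) : pr x i j = pr x j i := by
  unfold pr kd
  rw [mul_comm]
  simp only [eq_comm]

lemma cf_comm (hW : ∀ i j, W i j = W j i) (i j : Fin 3) : cf x W i j = cf x W j i := by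
  unfold cf
  rw [hW i j, pr_comm i j]

lemma cf_x (hx : ∑ i, x i * x i = 1) (hWx : ∀ i, ∑ j, W i j * x j = 0) (i : Fin 3) :
    ∑ j, cf x W i j * x j = 0 := by
  have h1 := pr_mul (x := x) i x
  have h2 := hWx i
  unfold cf
  simp only [sub_mul, Finset.sum_sub_distrib, h2, mul_assoc, ← Finset.mul_sum, h1, hx]
  ring

/-- `A W = det` on the plane -/
lemma cf_W (hW : ∀ i j, W i j = W j i) (hWx : ∀ i, ∑ j, W i j * x j = 0)
    (hc : ∀ j k, tr3 W * W j k - ∑ i, W i j * W i k = d * pr x j k) (i j : Fin 3) :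
    ∑ k, cf x W i k * W k j = d * pr x i j := by
  have h1 := pr_mul (x := x) i (fun k => W k j)
  have h2 : ∑ k, x k * W k j = 0 := by
    rw [← hWx j]
    exact Finset.sum_congr rfl fun k _ => by rw [hW k j, mul_comm]
  rw [h2] at h1
  rw [← hc i j]
  unfold cf
  simp only [sub_mul, Finset.sum_sub_distrib, mul_assoc, ← Finset.mul_sum, h1]
  rw [mul_zero, sub_zero]
  congr 1
  exact Finset.sum_congr rfl fun k _ => by rw [hW i k]

lemma cf_U (hW : ∀ i j, W i j = W j i) (hWx : ∀ i, ∑ j, W i j * x j = 0)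
    (hc : ∀ j k, tr3 W * W j k - ∑ i, W i j * W i k = d * pr x j k)
    (hb : ∑ i, b i * x i = 0) (hU : ∀ k, ∑ i, W k i * b i = U k) (i : Fin 3) :
    ∑ k, cf x W i k * U k = d * b i := by
  have h1 := pr_mul (x := x) i b
  have h2 : ∑ j, x j * b j = 0 := by
    rw [← hb]; exact Finset.sum_congr rfl fun k _ => mul_comm _ _
  rw [h2] at h1
  have h3 : ∑ k, cf x W i k * U k = ∑ j, (∑ k, cf x W i k * W k j) * b j := by
    simp only [← hU, Finset.mul_sum, Finset.sum_mul]
    rw [Finset.sum_comm]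
    exact Finset.sum_congr rfl fun k _ => Finset.sum_congr rfl fun l _ => by ring
  rw [h3]
  simp only [cf_W hW hWx hc, mul_assoc, ← Finset.mul_sum, h1]
  ring

/-- The second fundamental form of the boundary in terms of the derivatives of `b`. -/
theorem alg (hx : ∑ i, x i * x i = 1) (hb : ∑ i, b i * x i = 0)
    (hW : ∀ i j, W i j = W j i) (hWx : ∀ i, ∑ j, W i j * x j = 0)
    (hc : ∀ j k, tr3 W * W j k - ∑ i, W i j * W i k = d * pr x j k)
    (hU : ∀ k, ∑ i, W k i * b i = U k) (hG : ∀ i j, G i j = G j i)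
    (hB : ∀ k, ∑ i, B k i * x i = - b k)
    (hR : ∀ k i, ∑ l, (W k l + x l * U k) * G l i =
      t k * x i + (τ - 1) * pr x k i - t k * b i - τ * B k i) :
    d * ((∑ i, ∑ j, G i j * pr x i j) + 2 * (∑ i, ∑ j, G i j * b i * x j) +
        (∑ i, b i ^ 2) * ∑ i, ∑ j, G i j * x i * x j) =
      (τ - 1) * tr3 W - τ * (∑ k, ∑ i, cf x W k i * B k i) +
        τ * ∑ k, ∑ i, cf x W k i * b k * b i := by
  have hAM : ∀ m l, ∑ k, cf x W m k * (W k l + x l * U k) = d * (pr x m l + b m * x l) := by
    intro m l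
    have h1 := cf_W hW hWx hc m l
    have h2 := cf_U hW hWx hc hb hU m
    have h3 : ∑ k, cf x W m k * (W k l + x l * U k) =
        ∑ k, cf x W m k * W k l + x l * ∑ k, cf x W m k * U k := by
      rw [Finset.mul_sum, ← Finset.sum_add_distrib]
      exact Finset.sum_congr rfl fun k _ => by ring
    rw [h3, h1, h2]; ring
  have hb2 : ∀ m, ∑ i, pr x m i * b i = b m := fun m => by
    rw [pr_mul m b, show ∑ j, x j * b j = 0 by
      rw [← hb]; exact Finset.sum_congr rfl fun k _ => mul_comm _ _]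
    ring
  have hx2 : ∀ m, ∑ i, pr x m i * x i = 0 := fun m => by
    rw [pr_mul m x, hx]; ring
  have hpp : ∀ i l, ∑ m, pr x m i * pr x m l = pr x i l := fun i l => by
    have h := pr_mul (x := x) i (fun m => pr x m l)
    have h4 := hx2 l
    have h5 : ∑ j, x j * pr x j l = 0 := by
      rw [← h4]; exact Finset.sum_congr rfl fun k _ => by rw [pr_comm k l, mul_comm]
    rw [h5, mul_zero, sub_zero] at h
    rw [← h]
    exact Finset.sum_congr rfl fun m _ => by rw [pr_comm m i]
  have hQ : ∀ i l, ∑ m, (pr x m i + b m * x i) * (pr x m l + b m * x l) =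
      pr x i l + b i * x l + x i * b l + (∑ m, b m ^ 2) * (x i * x l) := by
    intro i l
    have h1 := hpp i l
    have h2 := hb2 i
    have h3 := hb2 l
    have e : ∑ m, (pr x m i + b m * x i) * (pr x m l + b m * x l) =
        ∑ m, pr x m i * pr x m l + x l * (∑ m, pr x i m * b m) + x i * (∑ m, pr x l m * b m) +
          (∑ m, b m ^ 2) * (x i * x l) := by
      simp only [Finset.mul_sum, Finset.sum_mul, ← Finset.sum_add_distrib]
      exact Finset.sum_congr rfl fun m _ => by rw [pr_comm i m, pr_comm l m]; ring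
    rw [e, h1, h2, h3]; ring
  -- the left side
  have hL : d * ((∑ i, ∑ j, G i j * pr x i j) + 2 * (∑ i, ∑ j, G i j * b i * x j) +
        (∑ i, b i ^ 2) * ∑ i, ∑ j, G i j * x i * x j) =
      ∑ i, ∑ l, (∑ m, (pr x m i + b m * x i) * (d * (pr x m l + b m * x l))) * G l i := by
    have h1 : ∀ i l, ∑ m, (pr x m i + b m * x i) * (d * (pr x m l + b m * x l)) =
        d * (pr x i l + b i * x l + x i * b l + (∑ m, b m ^ 2) * (x i * x l)) := by
      intro i l
      rw [← hQ i l, Finset.mul_sum]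
      exact Finset.sum_congr rfl fun m _ => by ring
    simp only [h1]
    generalize (∑ m, b m ^ 2) = s
    have hG10 := hG 1 0
    have hG20 := hG 2 0
    have hG21 := hG 2 1
    simp only [Fin.sum_univ_three, hG10, hG20, hG21]
    ring
  -- insert `A M`
  have hM : ∑ i, ∑ l, (∑ m, (pr x m i + b m * x i) * (d * (pr x m l + b m * x l))) * G l i =
      ∑ m, ∑ k, cf x W m k * ∑ i, (pr x m i + b m * x i) *
        ∑ l, (W k l + x l * U k) * G l i := by
    simp only [← hAM]
    simp only [Finset.mul_sum, Finset.sum_mul]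
    rw [Finset.sum_congr rfl fun i _ => Finset.sum_comm, Finset.sum_comm]
    refine Finset.sum_congr rfl fun m _ => ?_
    rw [Finset.sum_congr rfl fun i _ => Finset.sum_comm, Finset.sum_comm]
    refine Finset.sum_congr rfl fun k _ => Finset.sum_congr rfl fun i _ =>
      Finset.sum_congr rfl fun l _ => by ring
  rw [hL, hM]
  have hS : ∀ m k, ∑ i, (pr x m i + b m * x i) * ∑ l, (W k l + x l * U k) * G l i =
      (τ - 1) * pr x m k - τ * (∑ i, pr x m i * B k i) + τ * (b k * b m) := by
    intro m k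
    simp only [hR]
    have h1 := hb2 m
    have h2 := hx2 m
    have h3 := hx2 k
    have h4 := hpp m k
    have h5 := hB k
    have e : ∑ i, (pr x m i + b m * x i) * (t k * x i + (τ - 1) * pr x k i - t k * b i - τ * B k i) =
        t k * (∑ i, pr x m i * x i) + (τ - 1) * (∑ i, pr x i m * pr x i k) -
          t k * (∑ i, pr x m i * b i) - τ * (∑ i, pr x m i * B k i) +
          b m * t k * (∑ i, x i * x i) + b m * (τ - 1) * (∑ i, pr x k i * x i) -
          b m * t k * (∑ i, b i * x i) - τ * b m * (∑ i, B k i * x i) := by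
      simp only [Finset.mul_sum, ← Finset.sum_add_distrib, ← Finset.sum_sub_distrib]
      exact Finset.sum_congr rfl fun i _ => by rw [pr_comm i m, pr_comm i k]; ring
    rw [e, h1, h2, h3, h4, h5, hb, hx]
    ring
  simp only [hS]
  have h6 : ∑ m, ∑ k, cf x W m k * pr x m k = tr3 W := by
    have h7 : ∀ m, ∑ k, cf x W m k * pr x m k = cf x W m m := by
      intro m
      have h8 := pr_mul (x := x) m (fun k => cf x W m k)
      have h9 := cf_x hx hWx m
      have h10 : ∑ j, x j * cf x W m j = 0 := by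
        rw [← h9]; exact Finset.sum_congr rfl fun k _ => mul_comm _ _
      rw [h10, mul_zero, sub_zero] at h8
      rw [← h8]
      exact Finset.sum_congr rfl fun k _ => mul_comm _ _
    simp only [h7]
    have h11 : ∑ m, pr x m m = 2 := by
      unfold pr kd
      simp only [Fin.sum_univ_three] at hx ⊢
      norm_num
      linarith
    unfold cf
    rw [Finset.sum_sub_distrib, ← Finset.mul_sum, h11]
    unfold tr3
    ring
  have h12 : ∑ m, ∑ k, cf x W m k * (∑ i, pr x m i * B k i) = ∑ k, ∑ i, cf x W k i * B k i := by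
    have h13 : ∀ k, ∑ m, cf x W m k * (∑ i, pr x m i * B k i) = ∑ i, cf x W k i * B k i := by
      intro k
      simp only [Finset.mul_sum]
      rw [Finset.sum_comm]
      refine Finset.sum_congr rfl fun i _ => ?_
      have h8 := pr_mul (x := x) i (fun m => cf x W k m)
      have h9 := cf_x hx hWx k
      have h10 : ∑ j, x j * cf x W k j = 0 := by
        rw [← h9]; exact Finset.sum_congr rfl fun k _ => mul_comm _ _
      rw [h10, mul_zero, sub_zero] at h8
      rw [← h8, Finset.sum_mul]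
      exact Finset.sum_congr rfl fun m _ => by rw [cf_comm hW m k, pr_comm i m]; ring
    rw [Finset.sum_comm]
    exact Finset.sum_congr rfl fun k _ => h13 k
  have e : ∑ m, ∑ k, cf x W m k * ((τ - 1) * pr x m k - τ * (∑ i, pr x m i * B k i) +
      τ * (b k * b m)) = (τ - 1) * (∑ m, ∑ k, cf x W m k * pr x m k) -
      τ * (∑ m, ∑ k, cf x W m k * (∑ i, pr x m i * B k i)) +
      τ * ∑ m, ∑ k, cf x W m k * b m * b k := by
    simp only [Finset.mul_sum, ← Finset.sum_add_distrib, ← Finset.sum_sub_distrib]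
    refine Finset.sum_congr rfl fun m _ => Finset.sum_congr rfl fun k _ => ?_
    simp only [← Finset.mul_sum]
    ring
  rw [e, h6, h12]

/-- The null expansion times the area density. -/
theorem alg_theta {F : Fin 3 → ℝ} {Λ : ℝ} (hτ : τ ≠ 0)
    (hx : ∑ i, x i * x i = 1) (hb : ∑ i, b i * x i = 0)
    (hF : ∀ i, F i = (τ - 1) * x i - τ * b i) (hΛ : Λ * d = tr3 W) {R : ℝ} {T S : ℝ}
    (hR : d * R = (τ - 1) * tr3 W - τ * T + τ * S) :
    (Λ * (1 - ∑ i, F i ^ 2) / τ ^ 2 + 2 / τ * R) * d =
      tr3 W * (1 - ∑ i, b i ^ 2) - 2 * T + 2 * S := by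
  have h1 : ∑ i, F i ^ 2 = (τ - 1) ^ 2 + τ ^ 2 * ∑ i, b i ^ 2 := by
    simp only [hF]
    simp only [Fin.sum_univ_three] at *
    linear_combination (τ - 1) ^ 2 * hx - 2 * (τ - 1) * τ * hb
  have h2 : (Λ * (1 - ∑ i, F i ^ 2) / τ ^ 2 + 2 / τ * R) * d =
      (Λ * d) * (1 - ∑ i, F i ^ 2) / τ ^ 2 + 2 / τ * (d * R) := by ring
  rw [h2, hΛ, hR, h1]
  field_simp
  ring

end Vale.Agent.P366.H208
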