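import Mathlib
import Vale.Agent.P366.H208.X3a

/-! Null shells: the integral of the null expansion of the boundary of a graph over it. -/

open MeasureTheory Metric Filter Topology Set
open scoped ContDiff

noncomputable section
namespace Vale.Agent.P366.H208

open Vale.Agent.P366 (pd E)
open Vale.Agent.P366.H353

variable {D : Dat} {f g : E 3 → ℝ} {x : E 3}

/-! ### the direction field and the boundary point -/

/-- the unit vector in the direction of `x` -/
def nv (i : Fin 3) (x : E 3) : ℝ := x i / ‖x‖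

lemma sm_nv (i : Fin 3) : Sm (nv i) :=
  (Sm.coord i).div Sm.norm fun y hy => norm_ne_zero_iff.mpr hy

lemma hom_nv (i : Fin 3) : Hom 0 (nv i) := by
  intro x hx r hr
  have h1 : ‖x‖ ≠ 0 := norm_ne_zero_iff.mpr hx
  unfold nv
  rw [norm_smul, Real.norm_eq_abs, abs_of_pos hr]
  simp only [PiLp.smul_apply, smul_eq_mul, zpow_zero, one_mul]
  field_simp

lemma nv_one (hx : ‖x‖ = 1) (i : Fin 3) : nv i x = x i := by simp [nv, hx]

lemma pd_nv (hx : ‖x‖ = 1) (i j : Fin 3) : pd i (nv j) x = pr x i j := by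
  have h := Vale.Agent.P366.pd_Nc (ne_zero_of_one hx) i j
  unfold Vale.Agent.P366.Nc at h
  unfold nv
  rw [h, hx]
  unfold pr kd
  simp

lemma sum_nv (hx : x ≠ 0) : ∑ i, nv i x * nv i x = 1 := by
  have h := Vale.Agent.P366.sum_Nc_sq hx
  rw [← h]
  exact Finset.sum_congr rfl fun i _ => by unfold nv Vale.Agent.P366.Nc; ring

/-- the point of the boundary in the direction of `x` -/
def zz (D : Dat) (x : E 3) : E 3 := WithLp.toLp 2 fun i => pd i D.H x + D.U x * nv i x

lemma zz_apply (i : Fin 3) : zz D x i = pd i D.H x + D.U x * nv i x := rfl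

lemma sm_zz (i : Fin 3) : Sm fun y => zz D y i := (D.smH.pd i).add (D.smU.mul (sm_nv i))

lemma zz_smul (hx : x ≠ 0) {r : ℝ} (hr : 0 < r) : zz D (r • x) = zz D x := by
  ext i
  rw [zz_apply, zz_apply]
  have h1 := (D.homH.pd D.smH i) x hx r hr
  have h2 := D.homU x hx r hr
  have h3 := hom_nv i x hx r hr
  rw [h1, h2, h3]
  norm_num

lemma zz_cd (hx : x ≠ 0) : ContDiffAt ℝ ∞ (zz D) x := by
  rw [contDiffAt_euclidean]
  exact fun i => sm_zz i x hx

lemma zz_diff (hx : x ≠ 0) : DifferentiableAt ℝ (zz D) x :=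
  (zz_cd hx).differentiableAt (by simp)

lemma zz_unit (hx : x ≠ 0) : zz D x = zz D (‖x‖⁻¹ • x) :=
  (zz_smul hx (inv_pos.mpr (norm_pos_iff.mpr hx))).symm

lemma pd_zz (hx : ‖x‖ = 1) (i j : Fin 3) :
    pd j (fun y => zz D y i) x = D.W x j i + x i * pd j D.U x := by
  have h0 := ne_zero_of_one hx
  have e : (fun y => zz D y i) = fun y => pd i D.H y + D.U y * nv i y := rfl
  rw [e, pd_add' (D.smH.pd i) (D.smU.mul (sm_nv i)) h0, pd_mul' D.smU (sm_nv i) h0, pd_nv hx,
    nv_one hx]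
  unfold Dat.W hs
  ring

/-- chain rule -/
lemma pd_comp_zz (hx : x ≠ 0) (hg : DifferentiableAt ℝ g (zz D x)) (j : Fin 3) :
    pd j (fun y => g (zz D y)) x = ∑ i, pd j (fun y => zz D y i) x * pd i g (zz D x) := by
  unfold Vale.Agent.P366.pd
  have h := hg.hasFDerivAt.comp x (zz_diff (D := D) hx).hasFDerivAt
  rw [show (fun y => g (zz D y)) = g ∘ zz D from rfl, h.fderiv]
  rw [ContinuousLinearMap.comp_apply, Vale.Agent.P366.fderiv_eq_sum_pd]
  refine Finset.sum_congr rfl fun k _ => ?_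
  have h1 : HasFDerivAt (fun y => zz D y k)
      ((EuclideanSpace.proj k : E 3 →L[ℝ] ℝ).comp (fderiv ℝ (zz D) x)) x :=
    (EuclideanSpace.proj k : E 3 →L[ℝ] ℝ).hasFDerivAt.comp x (zz_diff hx).hasFDerivAt
  rw [h1.fderiv]
  rfl

/-! ### the function `f` on the boundary -/

/-- `f = - U` on the boundary, and the boundary is not null. -/
structure Bdy (D : Dat) (f : E 3 → ℝ) : Prop where
  sm : ∀ x, ‖x‖ = 1 → ContDiffAt ℝ ∞ f (zz D x)
  bd : ∀ x, ‖x‖ = 1 → f (zz D x) = - D.U x
  tp : ∀ x, ‖x‖ = 1 → 0 < 1 + ∑ i, x i * pd i f (zz D x)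

/-- the derivatives of `f` on the boundary -/
def Fv (D : Dat) (f : E 3 → ℝ) (i : Fin 3) (x : E 3) : ℝ := pd i f (zz D x)

/-- `1 + ∂_λ f` on the boundary -/
def tt (D : Dat) (f : E 3 → ℝ) (x : E 3) : ℝ := 1 + ∑ i, nv i x * Fv D f i x

/-- the tangential vector `b` -/
def bb (D : Dat) (f : E 3 → ℝ) (i : Fin 3) (x : E 3) : ℝ :=
  - (Fv D f i x - (tt D f x - 1) * nv i x) / tt D f x

lemma unit_of (hx : x ≠ 0) : ‖‖x‖⁻¹ • x‖ = 1 := by
  rw [norm_smul, norm_inv, norm_norm, inv_mul_cancel₀ (norm_ne_zero_iff.mpr hx)]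

namespace Bdy

variable (B : Bdy D f)

include B

lemma sm' (hx : x ≠ 0) : ContDiffAt ℝ ∞ f (zz D x) := by
  rw [zz_unit hx]; exact B.sm _ (unit_of hx)

lemma bd' (hx : x ≠ 0) : f (zz D x) = - D.U x := by
  rw [zz_unit hx, B.bd _ (unit_of hx), D.homU x hx _ (inv_pos.mpr (norm_pos_iff.mpr hx))]
  simp

lemma sm_Fv (i : Fin 3) : Sm (Fv D f i) := fun x hx => by
  have h1 : ContDiffAt ℝ ∞ (fderiv ℝ f) (zz D x) := (B.sm' hx).fderiv_right (by simp)
  have h2 : ContDiffAt ℝ ∞ (pd i f) (zz D x) := h1.clm_apply contDiffAt_const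
  exact h2.comp x (zz_cd hx)

omit B in
lemma hom_Fv (i : Fin 3) : Hom 0 (Fv D f i) := fun x hx r hr => by
  unfold Fv
  rw [zz_smul hx hr]
  simp

lemma sm_tt : Sm (tt D f) :=
  (Sm.const 1).add (Sm.sum _ fun i => (sm_nv i).mul (B.sm_Fv i))

omit B in
lemma hom_tt : Hom 0 (tt D f) :=
  (Hom.const 1).add (Hom.sum _ fun i => (((hom_nv i).mul (hom_Fv i)).cast (by norm_num)))

lemma tt_pos (hx : x ≠ 0) : 0 < tt D f x := by
  have h1 := B.tp _ (unit_of hx)
  have h2 := (hom_tt (D := D) (f := f)) x hx _ (inv_pos.mpr (norm_pos_iff.mpr hx))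
  rw [zpow_zero, one_mul] at h2
  rw [← h2]
  unfold tt Fv
  simpa only [nv_one (unit_of hx)] using h1

lemma sm_bb (i : Fin 3) : Sm (bb D f i) :=
  (((B.sm_Fv i).sub ((B.sm_tt.sub (Sm.const 1)).mul (sm_nv i))).neg).div B.sm_tt
    fun x hx => (B.tt_pos hx).ne'

lemma hom_bb (i : Fin 3) : Hom 0 (bb D f i) := fun x hx r hr => by
  unfold bb
  have h1 := (hom_tt (D := D) (f := f)) x hx r hr
  have h2 := (hom_Fv (D := D) (f := f) i) x hx r hr
  have h3 := hom_nv i x hx r hr
  rw [h1, h2, h3]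
  simp

lemma Fv_eq (hx : x ≠ 0) (i : Fin 3) :
    Fv D f i x = (tt D f x - 1) * nv i x - tt D f x * bb D f i x := by
  have h := (B.tt_pos hx).ne'
  unfold bb
  field_simp
  ring

lemma bb_nv (hx : x ≠ 0) : ∑ i, bb D f i x * nv i x = 0 := by
  have h := (B.tt_pos hx).ne'
  have h1 : tt D f x * ∑ i, bb D f i x * nv i x = 0 := by
    have h2 : ∑ i, nv i x * Fv D f i x = tt D f x - 1 := by unfold tt; ring
    have h3 := sum_nv hx
    have h4 : tt D f x * ∑ i, bb D f i x * nv i x =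
        (tt D f x - 1) * (∑ i, nv i x * nv i x) - ∑ i, nv i x * Fv D f i x := by
      simp only [B.Fv_eq hx, Finset.mul_sum, ← Finset.sum_sub_distrib]
      exact Finset.sum_congr rfl fun i _ => by ring
    rw [h4, h2, h3]; ring
  exact (mul_eq_zero.mp h1).resolve_left h

lemma bb_x (hx : ‖x‖ = 1) : ∑ i, bb D f i x * x i = 0 := by
  have h := B.bb_nv (ne_zero_of_one hx)
  simpa only [nv_one hx] using h

lemma first (hx : ‖x‖ = 1) (k : Fin 3) :
    ∑ l, (D.W x k l + x l * pd k D.U x) * Fv D f l x = - pd k D.U x := by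
  have h0 := ne_zero_of_one hx
  have h1 := pd_comp_zz (D := D) h0 ((B.sm' h0).differentiableAt (by simp)) k
  have h2 : pd k (fun y => f (zz D y)) x = - pd k D.U x := by
    rw [pd_congr' (fun y hy => B.bd' hy) h0 k, pd_neg']
  rw [h2] at h1
  rw [h1]
  refine Finset.sum_congr rfl fun l _ => ?_
  rw [pd_zz hx]
  rfl

lemma W_bb (hx : ‖x‖ = 1) (k : Fin 3) : ∑ i, D.W x k i * bb D f i x = pd k D.U x := by
  have h0 := ne_zero_of_one hx
  have h := (B.tt_pos h0).ne'
  have h1 := B.first hx k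
  have h2 : ∑ i, x i * Fv D f i x = tt D f x - 1 := by
    unfold tt; simp only [nv_one hx]; ring
  have h3 := D.W_x hx k
  have h4 : ∑ l, (D.W x k l + x l * pd k D.U x) * Fv D f l x =
      (tt D f x - 1) * (∑ l, D.W x k l * x l) - tt D f x * (∑ l, D.W x k l * bb D f l x) +
        pd k D.U x * ∑ l, x l * Fv D f l x := by
    have h5 : ∀ l, (D.W x k l + x l * pd k D.U x) * Fv D f l x =
        D.W x k l * Fv D f l x + pd k D.U x * (x l * Fv D f l x) := fun l => by ring
    simp only [h5, Finset.sum_add_distrib, ← Finset.mul_sum]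
    congr 1
    simp only [B.Fv_eq h0, nv_one hx, Finset.mul_sum, ← Finset.sum_sub_distrib]
    exact Finset.sum_congr rfl fun l _ => by ring
  rw [h4, h2, h3] at h1
  have h6 : tt D f x * (∑ i, D.W x k i * bb D f i x - pd k D.U x) = 0 := by linarith
  have := (mul_eq_zero.mp h6).resolve_left h
  linarith

lemma pd_bb_x (hx : ‖x‖ = 1) (k : Fin 3) : ∑ i, pd k (bb D f i) x * x i = - bb D f k x := by
  have h0 := ne_zero_of_one hx
  have h1 : pd k (fun y => ∑ i, bb D f i y * nv i y) x = 0 := by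
    rw [pd_congr' (h := fun y => ∑ i, bb D f i y * nv i y) (f := fun _ => (0 : ℝ))
      (fun y hy => B.bb_nv hy) h0 k, Vale.Agent.P366.pd_const]
  rw [pd_sum' _ (fun i => (B.sm_bb i).mul (sm_nv i)) h0] at h1
  have h2 : ∀ i, pd k (fun y => bb D f i y * nv i y) x =
      bb D f i x * pr x k i + pd k (bb D f i) x * x i := fun i => by
    rw [pd_mul' (B.sm_bb i) (sm_nv i) h0, pd_nv hx, nv_one hx]
  simp only [h2, Finset.sum_add_distrib] at h1
  have h3 := pr_mul (x := x) k (fun i => bb D f i x)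
  have h4 : ∑ j, x j * bb D f j x = 0 := by
    rw [← B.bb_x hx]; exact Finset.sum_congr rfl fun k _ => mul_comm _ _
  rw [h4, mul_zero, sub_zero] at h3
  have h5 : ∑ i, bb D f i x * pr x k i = bb D f k x := by
    rw [← h3]; exact Finset.sum_congr rfl fun i _ => mul_comm _ _
  linarith

lemma x_pd_bb (hx : ‖x‖ = 1) (i : Fin 3) : ∑ k, x k * pd k (bb D f i) x = 0 := by
  have h := (B.hom_bb i).euler (B.sm_bb i) (ne_zero_of_one hx)
  rw [h]; simp

/-- the second derivatives of `f` on the boundary -/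
lemma second (hx : ‖x‖ = 1) (k i : Fin 3) :
    ∑ l, (D.W x k l + x l * pd k D.U x) * hs f l i (zz D x) =
      pd k (tt D f) x * x i + (tt D f x - 1) * pr x k i - pd k (tt D f) x * bb D f i x -
        tt D f x * pd k (bb D f i) x := by
  have h0 := ne_zero_of_one hx
  have hd : DifferentiableAt ℝ (pd i f) (zz D x) := by
    have h1 : ContDiffAt ℝ ∞ (fderiv ℝ f) (zz D x) := (B.sm' h0).fderiv_right (by simp)
    have h2 : ContDiffAt ℝ ∞ (pd i f) (zz D x) := h1.clm_apply contDiffAt_const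
    exact h2.differentiableAt (by simp)
  have h1 := pd_comp_zz (D := D) h0 hd k
  have h2 : pd k (fun y => pd i f (zz D y)) x =
      pd k (tt D f) x * x i + (tt D f x - 1) * pr x k i - pd k (tt D f) x * bb D f i x -
        tt D f x * pd k (bb D f i) x := by
    have s1 : Sm fun y => tt D f y - 1 := B.sm_tt.sub (Sm.const 1)
    rw [pd_congr' (h := fun y => pd i f (zz D y))
      (f := fun y => (tt D f y - 1) * nv i y - tt D f y * bb D f i y)
      (fun y hy => B.Fv_eq hy i) h0 k,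
      pd_sub' (s1.mul (sm_nv i)) (B.sm_tt.mul (B.sm_bb i)) h0, pd_mul' s1 (sm_nv i) h0,
      pd_mul' B.sm_tt (B.sm_bb i) h0, pd_sub' B.sm_tt (Sm.const 1) h0,
      Vale.Agent.P366.pd_const, pd_nv hx, nv_one hx]
    ring
  rw [h2] at h1
  rw [h1]
  refine Finset.sum_congr rfl fun l _ => ?_
  rw [pd_zz hx]
  rfl

/-- the integration by parts -/
lemma parts : S2 (fun x => ∑ k, ∑ i, cf x (D.W x) k i * pd k (bb D f i) x) =
    - S2 (fun x => ∑ i, pd i D.U x * bb D f i x) := by
  have sB := B.sm_bb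
  have hB := B.hom_bb
  have s1 : ∀ i, Sm fun y => lap D.H y * bb D f i y - ∑ j, hs D.H i j y * bb D f j y := fun i =>
    (D.smH.lap.mul (sB i)).sub (Sm.sum _ fun j => (D.smH.hs i j).mul (sB j))
  have s2 : ∀ i, Sm fun y => D.U y * bb D f i y := fun i => D.smU.mul (sB i)
  have h1 := S2_div (k := -1)
    (F := fun i y => lap D.H y * bb D f i y - ∑ j, hs D.H i j y * bb D f j y) s1
    (fun i => ((((D.homH.lap D.smH).mul (hB i)).cast (by norm_num)).sub
      (Hom.sum _ fun j => ((D.homH.hs D.smH i j).mul (hB j)).cast (by norm_num))))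
  have h2 := S2_div (k := 0) (F := fun i y => D.U y * bb D f i y) s2
    (fun i => (D.homU.mul (hB i)).cast (by norm_num))
  have e1 : S2 (fun x => ∑ i, (lap D.H x * bb D f i x - ∑ j, hs D.H i j x * bb D f j x) * x i) =
      S2 (fun _ => (0 : ℝ)) := S2_congr fun x hx => by
    have h3 := B.bb_x hx
    have h0 := ne_zero_of_one hx
    have h4 : ∑ i, (∑ j, hs D.H i j x * bb D f j x) * x i = 0 := by
      have h5 : ∑ i, (∑ j, hs D.H i j x * bb D f j x) * x i =
          ∑ j, bb D f j x * ∑ i, hs D.H j i x * x i := by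
        simp only [Finset.mul_sum, Finset.sum_mul]
        rw [Finset.sum_comm]
        exact Finset.sum_congr rfl fun i _ => Finset.sum_congr rfl fun j _ => by
          rw [hs_symm D.smH h0 j i]; ring
      rw [h5]
      simp only [D.hs_x hx, mul_zero, Finset.sum_const_zero]
    simp only [sub_mul, Finset.sum_sub_distrib, h4, mul_assoc, ← Finset.mul_sum, h3]
    ring
  have e2 : S2 (fun x => ∑ i, D.U x * bb D f i x * x i) = S2 (fun _ => (0 : ℝ)) :=
    S2_congr fun x hx => by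
      have h3 := B.bb_x hx
      simp only [mul_assoc, ← Finset.mul_sum, h3, mul_zero]
  rw [e1, S2_const] at h1
  rw [e2, S2_const] at h2
  norm_num at h1 h2
  have s3 : Sm fun x => ∑ i, pd i (fun y => lap D.H y * bb D f i y -
      ∑ j, hs D.H i j y * bb D f j y) x := Sm.sum _ fun i => (s1 i).pd i
  have s4 : Sm fun x => ∑ i, pd i (fun y => D.U y * bb D f i y) x := Sm.sum _ fun i => (s2 i).pd i
  have h3 := S2_add s3.contOn s4.contOn
  rw [h1, h2, add_zero] at h3
  have s5 : Sm fun x => ∑ k, ∑ i, cf x (D.W x) k i * pd k (bb D f i) x :=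
    Sm.sum _ fun k => Sm.sum _ fun i => (D.Sm_A k i).mul ((sB i).pd k)
  have s6 : Sm fun x => ∑ i, pd i D.U x * bb D f i x := Sm.sum _ fun i => (D.smU.pd i).mul (sB i)
  have h4 : S2 (fun x => (∑ k, ∑ i, cf x (D.W x) k i * pd k (bb D f i) x) +
      ∑ i, pd i D.U x * bb D f i x) = 0 := by
    rw [← h3]
    refine S2_congr fun x hx => ?_
    have h0 := ne_zero_of_one hx
    have k1 : ∀ i, pd i (fun y => lap D.H y * bb D f i y - ∑ j, hs D.H i j y * bb D f j y) x =
        lap D.H x * pd i (bb D f i) x + pd i (lap D.H) x * bb D f i x -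
          (∑ j, hs D.H i j x * pd i (bb D f j) x + ∑ j, pd i (hs D.H i j) x * bb D f j x) := by
      intro i
      rw [pd_sub' (D.smH.lap.mul (sB i)) (Sm.sum _ fun j => (D.smH.hs i j).mul (sB j)) h0,
        pd_mul' D.smH.lap (sB i) h0, pd_sum' _ (fun j => (D.smH.hs i j).mul (sB j)) h0,
        ← Finset.sum_add_distrib]
      congr 1
      refine Finset.sum_congr rfl fun j _ => ?_
      rw [pd_mul' (D.smH.hs i j) (sB j) h0]
    have k2 : ∑ i, ∑ j, pd i (hs D.H i j) x * bb D f j x = ∑ j, pd j (lap D.H) x * bb D f j x := by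
      rw [Finset.sum_comm]
      refine Finset.sum_congr rfl fun j _ => ?_
      rw [← Finset.sum_mul, B745.third D.smH h0 j]
    have k3 : ∀ i, pd i (fun y => D.U y * bb D f i y) x =
        D.U x * pd i (bb D f i) x + pd i D.U x * bb D f i x := fun i => by
      rw [pd_mul' D.smU (sB i) h0]
    simp only [k1, k3, Finset.sum_sub_distrib, Finset.sum_add_distrib, k2, ← Finset.mul_sum]
    have htr : tr3 (D.W x) = lap D.H x + 2 * D.U x := Vale.Agent.P366.H296.tr_W D hx
    have k4 : ∑ k, ∑ i, cf x (D.W x) k i * pd k (bb D f i) x =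
        (lap D.H x + D.U x) * (∑ i, pd i (bb D f i) x) -
          ∑ k, ∑ i, hs D.H k i x * pd k (bb D f i) x := by
      have k5 : ∀ i k, cf x (D.W x) k i * pd k (bb D f i) x =
          (lap D.H x + D.U x) * (kd i k * pd k (bb D f i) x) -
            (lap D.H x + D.U x) * (x i * (x k * pd k (bb D f i) x)) -
            hs D.H k i x * pd k (bb D f i) x := by
        intro i k
        unfold cf Dat.W at *
        rw [htr, show kd i k = kd k i by unfold kd; simp only [eq_comm]]
        unfold pr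
        ring
      rw [Finset.sum_comm]
      simp only [k5, Finset.sum_sub_distrib, ← Finset.mul_sum, B.x_pd_bb hx, mul_zero,
        Finset.sum_const_zero, sub_zero]
      congr 1
      · congr 1
        exact Finset.sum_congr rfl fun i _ => kd_mul i fun k => pd k (bb D f i) x
      · rw [Finset.sum_comm]
    rw [k4]
    ring
  rw [S2_add s5.contOn s6.contOn] at h4
  linarith

/-- the integral inequality -/
theorem main {Θ : E 3 → ℝ} (hΘ : ∀ x, ‖x‖ = 1 → Θ x * D.dt x =
      tr3 (D.W x) * (1 - ∑ i, bb D f i x ^ 2) -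
        2 * (∑ k, ∑ i, cf x (D.W x) k i * pd k (bb D f i) x) +
        2 * ∑ k, ∑ i, cf x (D.W x) k i * bb D f k x * bb D f i x) :
    S2 D.Phi ≤ S2 (fun x => Θ x * D.dt x) := by
  have sB := B.sm_bb
  have sN : Sm fun x => ∑ i, bb D f i x ^ 2 := Sm.sum _ fun i => (sB i).pow 2
  have sT := D.Sm_trW
  have s5 : Sm fun x => ∑ k, ∑ i, cf x (D.W x) k i * pd k (bb D f i) x :=
    Sm.sum _ fun k => Sm.sum _ fun i => (D.Sm_A k i).mul ((sB i).pd k)
  have s6 : Sm fun x => ∑ i, pd i D.U x * bb D f i x := Sm.sum _ fun i => (D.smU.pd i).mul (sB i)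
  have s7 : Sm fun x => ∑ k, ∑ i, cf x (D.W x) k i * bb D f k x * bb D f i x :=
    Sm.sum _ fun k => Sm.sum _ fun i => ((D.Sm_A k i).mul (sB k)).mul (sB i)
  have s8 : Sm fun x => tr3 (D.W x) * (1 - ∑ i, bb D f i x ^ 2) := sT.mul ((Sm.const 1).sub sN)
  rw [S2_congr hΘ]
  have e1 : S2 (fun x => tr3 (D.W x) * (1 - ∑ i, bb D f i x ^ 2) -
        2 * (∑ k, ∑ i, cf x (D.W x) k i * pd k (bb D f i) x) +
        2 * ∑ k, ∑ i, cf x (D.W x) k i * bb D f k x * bb D f i x) =
      S2 (fun x => tr3 (D.W x) * (1 - ∑ i, bb D f i x ^ 2) +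
        2 * (∑ i, pd i D.U x * bb D f i x) +
        2 * ∑ k, ∑ i, cf x (D.W x) k i * bb D f k x * bb D f i x) := by
    have c5 := s5.contOn
    have c6 := s6.contOn
    rw [S2_add (s8.sub ((Sm.const 2).mul s5)).contOn ((Sm.const 2).mul s7).contOn,
      S2_sub s8.contOn ((Sm.const 2).mul s5).contOn,
      S2_add (s8.add ((Sm.const 2).mul s6)).contOn ((Sm.const 2).mul s7).contOn,
      S2_add s8.contOn ((Sm.const 2).mul s6).contOn, S2_cmul, S2_cmul, S2_cmul, B.parts]
    ring
  rw [e1]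
  refine S2_mono (D.contOn_Phi fun x hx => dt_pos D hx)
    ((s8.add ((Sm.const 2).mul s6)).add ((Sm.const 2).mul s7)).contOn fun x hx => ?_
  have hxx := sum_xx hx
  have hbx := B.bb_x hx
  have hxb : ∑ i, x i * bb D f i x = 0 := by
    rw [← hbx]; exact Finset.sum_congr rfl fun k _ => mul_comm _ _
  have hW := D.W_symm hx
  have hWx := D.W_x hx
  have hc : ∀ j k, tr3 (D.W x) * D.W x j k - ∑ i, D.W x i j * D.W x i k = D.dt x * pr x j k :=
    Vale.Agent.P366.H296.cayley hx hW hWx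
  have hU := B.W_bb hx
  have hd := dt_pos D hx
  have h1 := cf_U hW hWx hc hbx hU
  -- `Phi`
  have hPhi : D.Phi x = tr3 (D.W x) + ∑ i, pd i D.U x * bb D f i x := by
    unfold Dat.Phi
    congr 1
    rw [div_eq_iff hd.ne']
    have h2 : qf (D.A x) (D.gU x) (D.gU x) = ∑ i, pd i D.U x * ∑ k, cf x (D.W x) i k * pd k D.U x := by
      unfold qf
      refine Finset.sum_congr rfl fun i _ => ?_
      rw [Finset.mul_sum]
      exact Finset.sum_congr rfl fun k _ => by unfold Dat.A Dat.gU cf; ring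
    rw [h2]
    simp only [h1]
    rw [Finset.sum_mul]
    exact Finset.sum_congr rfl fun i _ => by ring
  have hUb : ∑ i, pd i D.U x * bb D f i x = qf (D.W x) (fun i => bb D f i x) fun i => bb D f i x := by
    unfold qf
    refine Finset.sum_congr rfl fun i _ => ?_
    rw [← hU i, Finset.sum_mul]
    exact Finset.sum_congr rfl fun k _ => by ring
  have hA : ∑ k, ∑ i, cf x (D.W x) k i * bb D f k x * bb D f i x =
      tr3 (D.W x) * (∑ i, bb D f i x ^ 2) - ∑ i, pd i D.U x * bb D f i x := by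
    have h2 : ∀ k, ∑ i, cf x (D.W x) k i * bb D f k x * bb D f i x =
        tr3 (D.W x) * bb D f k x ^ 2 - pd k D.U x * bb D f k x := by
      intro k
      have h3 := pr_mul (x := x) k fun i => bb D f i x
      rw [hxb, mul_zero, sub_zero] at h3
      rw [← hU k]
      have h4 : ∑ i, cf x (D.W x) k i * bb D f k x * bb D f i x =
          tr3 (D.W x) * bb D f k x * (∑ i, pr x k i * bb D f i x) -
            (∑ i, D.W x k i * bb D f i x) * bb D f k x := by
        rw [Finset.mul_sum, Finset.sum_mul, ← Finset.sum_sub_distrib]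
        exact Finset.sum_congr rfl fun i _ => by unfold cf; ring
      rw [h4, h3]; ring
    simp only [h2, Finset.sum_sub_distrib, ← Finset.mul_sum]
  -- `⟨A b, b⟩ ≥ 0`
  have hpos : 0 ≤ tr3 (D.W x) * (∑ i, bb D f i x ^ 2) - ∑ i, pd i D.U x * bb D f i x := by
    obtain ⟨e, f', a, b, c, F, hWf, ha, hdet⟩ := D.W_frame hx
    have hv := F.vec' hxb
    have hn : ∑ i, bb D f i x ^ 2 = (∑ j, e j * bb D f j x) ^ 2 + (∑ j, f' j * bb D f j x) ^ 2 := by
      have h2 : ∑ i, bb D f i x ^ 2 = ∑ i, bb D f i x * ((∑ j, e j * bb D f j x) * e i +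
          (∑ j, f' j * bb D f j x) * f' i) :=
        Finset.sum_congr rfl fun i _ => by rw [sq, ← hv i]
      rw [h2]
      simp only [mul_add, Finset.sum_add_distrib]
      have h3 : ∀ v : Fin 3 → ℝ, ∀ c : ℝ, ∑ i, bb D f i x * (c * v i) = c * ∑ i, v i * bb D f i x := by
        intro v c
        rw [Finset.mul_sum]
        exact Finset.sum_congr rfl fun i _ => by ring
      rw [h3, h3]; ring
    rw [hUb, hn, hWf, F.tr_fm, Fr.qf_fm]
    set p := ∑ j, e j * bb D f j x
    set q := ∑ j, f' j * bb D f j x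
    have h5 : 0 ≤ a * ((a + c) * (p ^ 2 + q ^ 2) - (a * (p * p) + b * (p * q + q * p) + c * (q * q))) := by
      nlinarith [sq_nonneg (a * q - b * p), mul_nonneg hdet.le (sq_nonneg p)]
    exact nonneg_of_mul_nonneg_right h5 ha
  rw [hPhi, hA]
  nlinarith [hpos]

end Bdy

end Vale.Agent.P366.H208
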