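import Mathlib
import Vale.Agent.P366.H208.X3b
import Vale.Agent.P366.H222.X0d

/-! Kerr-Schild exteriors: the integral of the flat null expansion of the boundary. -/

open MeasureTheory Metric Filter Topology Set
open scoped ContDiff ENNReal

noncomputable section
namespace Vale.Agent.P366.KS

open Vale.Agent.P366 (pd E)
open Vale.Agent.P366.H353
open Vale.Agent.P366.H208

variable {C : Cone} {lam f : E 3 → ℝ} {V : E 4 → ℝ} {D : Stmt.Exterior 3} {x y : E 3} {s t : ℝ}

theorem zz_eq_Y (hx : ‖x‖ = 1) : zz C.toDat x = Y C.H x (C.U x) := by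
  ext i
  rw [zz_apply, nv_one hx]
  rfl

theorem bdy (hS : IsSlice C lam V f D) : Bdy C.toDat f where
  sm x hx := by
    rw [zz_eq_Y hx]
    exact hS.smf _ (mem_Y hS hx le_rfl)
  bd x hx := by
    rw [zz_eq_Y hx]
    exact (f_bdr hS hx).1
  tp x hx := by
    rw [zz_eq_Y hx, ← dL_Y hS hx le_rfl]
    exact dL_pos hS (mem_Y hS hx le_rfl)

theorem int_thl (hS : IsSlice C lam V f D) :
    S2 C.Phi ≤ S2 (fun x => thl lam f (Y C.H x (C.U x)) * C.dt x) := by
  have B := bdy hS
  refine B.main fun x hx => ?_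
  have h0 := ne_zero_of_one hx
  have hy : 0 ≤ D.F (Y C.H x (C.U x)) := mem_Y hS hx le_rfl
  have hW := C.toDat.W_symm hx
  have hWx := C.toDat.W_x hx
  have hc : ∀ j k, tr3 (C.toDat.W x) * C.toDat.W x j k - ∑ i, C.toDat.W x i j * C.toDat.W x i k =
      C.toDat.dt x * pr x j k := Vale.Agent.P366.H296.cayley hx hW hWx
  have hz := zz_eq_Y (C := C) hx
  have hτ : 1 + dL lam f (Y C.H x (C.U x)) = tt C.toDat f x := by
    rw [dL_Y hS hx le_rfl]
    unfold tt Fv
    simp only [nv_one hx, hz]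
  have hb : ∀ i, bv lam f i (Y C.H x (C.U x)) = bb C.toDat f i x := by
    intro i
    unfold bv bb
    rw [hτ, pd_lam_Y hS hx le_rfl, nv_one hx,
      show dL lam f (Y C.H x (C.U x)) = tt C.toDat f x - 1 by rw [← hτ]; ring]
    unfold Fv
    rw [hz]
  have hΛ : lap lam (Y C.H x (C.U x)) * C.toDat.dt x = tr3 (C.toDat.W x) := lap_lam_Y hS hx le_rfl
  have hF : ∀ i, pd i f (Y C.H x (C.U x)) =
      (tt C.toDat f x - 1) * x i - tt C.toDat f x * bb C.toDat f i x := by
    intro i
    have := B.Fv_eq h0 i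
    rw [nv_one hx] at this
    rw [← this]
    unfold Fv
    rw [hz]
  have hG : ∀ i j, hs f i j (Y C.H x (C.U x)) = hs f j i (Y C.H x (C.U x)) :=
    fun i j => hs_symm_at (hS.smf _ hy) i j
  have hR := alg (sum_xx hx) (B.bb_x hx) hW hWx hc (B.W_bb hx) hG (B.pd_bb_x hx)
    (t := fun k => pd k (tt C.toDat f) x) (τ := tt C.toDat f x) (fun k i => by
      have := B.second hx k i
      rw [hz] at this
      exact this)
  have h := alg_theta (B.tt_pos h0).ne' (sum_xx hx) (B.bb_x hx) hF hΛ hR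
  rw [← h]
  unfold thl
  rw [hτ]
  simp only [hb, pd_lam_Y hS hx le_rfl]

end Vale.Agent.P366.KS
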